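import Vale.Agent.Lib.P188.Effective

/-!
P188: effective quasi-isometric rigidity of the integers.
-/

namespace Vale.Agent.Results.P188.EffectiveIntegers

open Vale.Agent.Lib.P188

/-- Let `H` be generated by the finite set `S` and let `f : H → ℤ` be a `(K, C)`-quasi-isometry
from `H` with the word metric of `S` to the integers. Then some `h` of infinite order and of
word length at most `38 K^11 (C+1)` has all of `H` within distance `40 K^13 (C+1)` of its powers,
so that `⟨h⟩` has index at most `(2|S|+1)^(40 K^13 (C+1))`. -/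
theorem result (H : Type*) [Group H] (S : Set H) (hSf : S.Finite)
    (hS : Subgroup.closure S = ⊤) (K C : ℕ) (hK : 1 ≤ K) (f : H → ℤ)
    (hf : ∀ x y : H, (wordDist S x y : ℝ) / K - C ≤ |(f x : ℝ) - (f y : ℝ)| ∧
        |(f x : ℝ) - (f y : ℝ)| ≤ K * (wordDist S x y : ℝ) + C)
    (hdense : ∀ m : ℤ, ∃ x : H, |(f x : ℝ) - (m : ℝ)| ≤ C) :
    ∃ h : H, wordLen S h ≤ 38 * K ^ 11 * (C + 1) ∧
      (∀ k : ℤ, h ^ k = 1 → k = 0) ∧
      (∀ x : H, ∃ k : ℤ, wordDist S (h ^ k) x ≤ 40 * K ^ 13 * (C + 1)) ∧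
      (Subgroup.zpowers h).FiniteIndex ∧
      (Subgroup.zpowers h).index ≤ (2 * S.ncard + 1) ^ (40 * K ^ 13 * (C + 1)) :=
  line_effective_real S hSf hS K C hK f hf hdense

end Vale.Agent.Results.P188.EffectiveIntegers
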