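import Vale.Agent.Lib.P188.Main

/-!
P188, special case: the virtually polycyclic group `G` is virtually cyclic.
-/

namespace Vale.Agent.Results.P188.VirtuallyCyclicTarget

open Vale.Agent.Lib.P188

/-- If `G` has a cyclic subgroup of finite index and the finitely generated group `H` is
quasi-isometric to `G`, then `H` has a cyclic subgroup of finite index; in particular `H` is
virtually polycyclic. -/
theorem result (G H : Type*) [Group G] [Group H]
    (hG : ∃ z : G, (Subgroup.zpowers z).FiniteIndex) (hQI : QuasiIsometric H G) :
    (∃ h : H, (Subgroup.zpowers h).FiniteIndex) ∧ IsVirtuallyPolycyclic H := by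
  obtain ⟨z, hz⟩ := hG
  obtain ⟨h, hh⟩ := vcyclic_rigidity z hz hQI
  exact ⟨⟨h, hh⟩, isVirtuallyPolycyclic_of_zpowers h hh⟩

end Vale.Agent.Results.P188.VirtuallyCyclicTarget
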